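import Vale.Agent.P017.H915.TupP

/-!
# The number of divisors counted by the criterion, as a sum over colourings
-/

namespace Vale.Agent.P017.H915

open Finset Vale.Agent.P014.FM Vale.Agent.P017.H506
open Vale.Agent.P014.H698 (J_prod_left zmod2_cases)

/-- the sign attached to a colouring -/
noncomputable def W {ι : Type*} (P : ι → ι → ZMod 2) {n : ℕ} (c : n.primeFactors → ι) : ℝ :=
  ∏ p : n.primeFactors, ∏ q : n.primeFactors, (if P (c p) (c q) = 1 then J p q else 1)

theorem J_pm {n : ℕ} (p q : n.primeFactors) (h : p ≠ q) :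
    J (p : ℕ) (q : ℕ) = 1 ∨ J (p : ℕ) (q : ℕ) = -1 := by
  have h1 : Int.gcd ((p : ℕ) : ℤ) ((q : ℕ) : ℤ) = 1 := by
    rw [Int.gcd_natCast_natCast]
    exact (Nat.coprime_primes (prime_coe p) (prime_coe q)).mpr fun h' => h (Subtype.ext h')
  unfold Vale.Agent.P014.H580.J
  rcases jacobiSym.eq_one_or_neg_one h1 with h2 | h2
  · left; rw [h2]; norm_num
  · right; rw [h2]; norm_num

theorem prod_ite_pm {κ : Type*} (s : Finset κ) (f : κ → ZMod 2) {z : ℝ} (hz : z = 1 ∨ z = -1) :
    ∏ i ∈ s, (if f i = 1 then z else 1) = if ∑ i ∈ s, f i = 1 then z else 1 := by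
  classical
  induction s using Finset.induction_on with
  | empty => simp
  | insert i s hi ih =>
    rw [Finset.prod_insert hi, Finset.sum_insert hi, ih]
    have h01 : (0 : ZMod 2) ≠ 1 := by decide
    have h11 : (1 : ZMod 2) + 1 ≠ 1 := by decide
    rcases zmod2_cases (f i) with h1 | h1 <;> rcases zmod2_cases (∑ j ∈ s, f j) with h2 | h2 <;>
      rw [h1, h2]
    · rw [zero_add, if_neg h01, mul_one]
    · rw [zero_add, if_neg h01, one_mul]
    · rw [add_zero, if_neg h01, mul_one]
    · rw [if_pos rfl, if_neg h11]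
      rcases hz with rfl | rfl <;> norm_num

theorem P1_self (u : ZMod 2 × ZMod 2) : P1 u u = 0 := by
  revert u; decide

theorem W_pow (k : ℕ) {n : ℕ} (C : n.primeFactors → Ix k) :
    W (Pk k) C = ∏ i, W P1 (fun p => C p i) := by
  unfold W
  rw [Finset.prod_comm]
  rw [Finset.prod_comm (s := (univ : Finset (Fin k)))]
  rw [Finset.prod_comm]
  refine Finset.prod_congr rfl fun p _ => ?_
  rw [Finset.prod_comm (s := (univ : Finset (Fin k)))]
  refine Finset.prod_congr rfl fun q _ => ?_
  by_cases hpq : p = q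
  · subst hpq
    have h0 : Pk k (C p) (C p) = 0 := Finset.sum_eq_zero fun i _ => P1_self _
    rw [h0, if_neg (by decide)]
    refine (Finset.prod_eq_one fun i _ => ?_).symm
    rw [P1_self, if_neg (by decide)]
  · exact (prod_ite_pm _ _ (J_pm p q hpq)).symm

theorem sum_W_pow (k : ℕ) (n : ℕ) :
    ∑ C : n.primeFactors → Ix k, W (Pk k) C =
      (∑ c : n.primeFactors → ZMod 2 × ZMod 2, W P1 c) ^ k := by
  rw [Fintype.sum_pow]
  refine Fintype.sum_equiv (Equiv.piComm fun _ _ => ZMod 2 × ZMod 2) _ _ fun C => ?_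
  rw [W_pow]
  rfl

/-- the local symbol -/
noncomputable def eps {n : ℕ} (x : n.primeFactors → ZMod 2) (p : n.primeFactors) : ℝ :=
  ∏ q : n.primeFactors, (if x q + x p = 1 then J q p else 1)

theorem eps_pm {n : ℕ} (x : n.primeFactors → ZMod 2) (p : n.primeFactors) :
    eps x p = 1 ∨ eps x p = -1 := by
  unfold eps
  refine Finset.prod_induction _ (fun z => z = 1 ∨ z = -1) ?_ (Or.inl rfl) ?_
  · rintro a b (rfl | rfl) (rfl | rfl) <;> norm_num
  · intro q _
    split_ifs with h
    · refine J_pm q p ?_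
      rintro rfl
      rw [CharTwo.add_self_eq_zero] at h
      exact absurd h (by decide)
    · exact Or.inl rfl

theorem sum_W_eq (n : ℕ) :
    ∑ c : n.primeFactors → ZMod 2 × ZMod 2, W P1 c =
      ∑ x : n.primeFactors → ZMod 2, ∏ p, (1 + eps x p) := by
  rw [← (Equiv.arrowProdEquivProdArrow n.primeFactors (fun _ => ZMod 2)
    (fun _ => ZMod 2)).symm.sum_comp, Fintype.sum_prod_type]
  refine Finset.sum_congr rfl fun x _ => ?_
  have h1 : ∀ t : n.primeFactors → ZMod 2,
      W P1 ((Equiv.arrowProdEquivProdArrow n.primeFactors (fun _ => ZMod 2)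
        (fun _ => ZMod 2)).symm (x, t)) = ∏ p, (if t p = 1 then eps x p else 1) := by
    intro t
    unfold W
    rw [Finset.prod_comm]
    refine Finset.prod_congr rfl fun p _ => ?_
    show ∏ q : n.primeFactors, (if P1 (x q, t q) (x p, t p) = 1 then J q p else 1) = _
    unfold P1 eps
    rcases zmod2_cases (t p) with h | h
    · rw [if_neg (by rw [h]; decide)]
      refine Finset.prod_eq_one fun q _ => ?_
      rw [if_neg]
      simp [h]
    · rw [if_pos h]
      refine Finset.prod_congr rfl fun q _ => ?_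
      simp only [h, one_mul]
  rw [Finset.sum_congr rfl fun t _ => h1 t]
  have h2 := Finset.prod_univ_sum (fun _ : n.primeFactors => (Finset.univ : Finset (ZMod 2)))
    (fun p a => if a = 1 then eps x p else (1 : ℝ))
  rw [Fintype.piFinset_univ] at h2
  rw [← h2]
  refine Finset.prod_congr rfl fun p _ => ?_
  have h3 : ∀ f : ZMod 2 → ℝ, ∑ a : ZMod 2, f a = f 0 + f 1 := fun f => Fin.sum_univ_two f
  rw [h3, if_neg (by decide), if_pos rfl]

open Classical in
theorem prod_eps {n : ℕ} (x : n.primeFactors → ZMod 2) :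
    ∏ p, (1 + eps x p) = if ∀ p, eps x p = 1 then 2 ^ n.primeFactors.card else 0 := by
  split_ifs with h
  · rw [Finset.prod_congr rfl fun p _ => by rw [h p]]
    rw [Finset.prod_const, Finset.card_univ, Fintype.card_coe]
    norm_num
  · push Not at h
    obtain ⟨p, hp⟩ := h
    refine Finset.prod_eq_zero (Finset.mem_univ p) ?_
    rcases eps_pm x p with h1 | h1
    · exact absurd h1 hp
    · rw [h1]; norm_num

theorem Dc_zmod2 {n : ℕ} (hn : Squarefree n) (x : n.primeFactors → ZMod 2) :
    Dc x 0 * Dc x 1 = n := by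
  have h := prod_Dc hn x
  have h3 : ∀ f : ZMod 2 → ℕ, ∏ a : ZMod 2, f a = f 0 * f 1 := fun f => Fin.prod_univ_two f
  rwa [h3] at h

theorem J_Dc {n : ℕ} (x : n.primeFactors → ZMod 2) (a : ZMod 2) (p : n.primeFactors) :
    J (Dc x a) p = ∏ q : n.primeFactors, (if x q = a then J q p else 1) := by
  unfold Dc
  rw [J_prod_left, Finset.prod_filter]

theorem eps_eq {n : ℕ} (x : n.primeFactors → ZMod 2) (p : n.primeFactors) :
    eps x p = J (Dc x (x p + 1)) p := by
  rw [J_Dc]
  unfold eps
  refine Finset.prod_congr rfl fun q _ => ?_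
  have : x q + x p = 1 ↔ x q = x p + 1 := by
    rcases zmod2_cases (x p) with h | h <;> rcases zmod2_cases (x q) with h' | h' <;>
      rw [h, h'] <;> decide
  simp only [this]

theorem J_eq_one_iff {p a : ℕ} (hp : p.Prime) (h : ¬ p ∣ a) :
    J a p = 1 ↔ IsSquare ((a : ℕ) : ZMod p) := by
  have : Fact p.Prime := ⟨hp⟩
  have h0 : (((a : ℕ) : ℤ) : ZMod p) ≠ 0 := by
    rw [Int.cast_natCast]
    intro h'
    exact h ((ZMod.natCast_eq_zero_iff a p).mp h')
  unfold Vale.Agent.P014.H580.J
  rw [← jacobiSym.legendreSym.to_jacobiSym]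
  have h1 := legendreSym.eq_one_iff (p := p) h0
  rw [Int.cast_natCast] at h1
  rw [← h1]
  constructor
  · intro h2
    exact_mod_cast h2
  · intro h2
    rw [h2]; norm_num

theorem cond_iff {n : ℕ} (hn : Squarefree n) (x : n.primeFactors → ZMod 2) :
    Cond n (Dc x 1) ↔ ∀ p, eps x p = 1 := by
  have hdiv : n / Dc x 1 = Dc x 0 := by
    have h := Dc_zmod2 hn x
    have hpos : 0 < Dc x 1 := by
      rcases Nat.eq_zero_or_pos (Dc x 1) with h0 | h0
      · rw [h0, mul_zero] at h
        exact absurd h.symm hn.ne_zero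
      · exact h0
    exact Nat.div_eq_of_eq_mul_left hpos h.symm
  have key : ∀ p : n.primeFactors,
      ((¬ (p : ℕ) ∣ Dc x 1 → IsSquare ((Dc x 1 : ℕ) : ZMod p)) ∧
        ((p : ℕ) ∣ Dc x 1 → IsSquare ((Dc x 0 : ℕ) : ZMod p))) ↔ eps x p = 1 := by
    intro p
    rw [eps_eq, dvd_Dc_iff]
    rcases zmod2_cases (x p) with h | h
    · rw [h, zero_add, J_eq_one_iff (prime_coe p) (by rw [dvd_Dc_iff, h]; decide)]
      simp
    · rw [h, show (1 : ZMod 2) + 1 = 0 by decide,
        J_eq_one_iff (prime_coe p) (by rw [dvd_Dc_iff, h]; decide)]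
      simp
  unfold Cond
  rw [hdiv]
  constructor
  · intro h p
    exact (key p).mp (h p (prime_coe p) (Nat.dvd_of_mem_primeFactors p.2))
  · intro h p hp hpn
    exact (key ⟨p, Nat.mem_primeFactors.mpr ⟨hp, hpn, hn.ne_zero⟩⟩).mpr (h _)

open Classical in
theorem card_RS {n : ℕ} (hn : Squarefree n) :
    (RS n).card =
      ((univ : Finset (n.primeFactors → ZMod 2)).filter fun x => ∀ p, eps x p = 1).card := by
  symm
  refine Finset.card_bij (fun x _ => Dc x 1) ?_ ?_ ?_
  · intro x hx
    rw [Finset.mem_filter] at hx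
    unfold RS
    rw [Finset.mem_filter, Nat.mem_divisors]
    exact ⟨⟨Dc_dvd hn x 1, hn.ne_zero⟩, (cond_iff hn x).mpr hx.2⟩
  · intro x _ y _ hxy
    funext p
    have h1 := dvd_Dc_iff x 1 p
    have h2 := dvd_Dc_iff y 1 p
    have hxy' : Dc x 1 = Dc y 1 := hxy
    rw [hxy'] at h1
    rcases zmod2_cases (x p) with h | h <;> rcases zmod2_cases (y p) with h' | h'
    · rw [h, h']
    · have := h1.mp (h2.mpr h')
      rw [h, h'] at *
      exact this
    · have := h2.mp (h1.mpr h)
      rw [h, h'] at *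
      exact this.symm
    · rw [h, h']
  · intro a ha
    unfold RS at ha
    rw [Finset.mem_filter, Nat.mem_divisors] at ha
    obtain ⟨⟨ha1, ha2⟩, ha3⟩ := ha
    have hD : (fun u : ZMod 2 => if u = 1 then a else n / a) ∈ tup (ZMod 2) n := by
      unfold tup
      rw [Finset.mem_filter, Fintype.mem_piFinset]
      constructor
      · intro u
        show (if u = 1 then a else n / a) ∈ n.divisors
        rw [Nat.mem_divisors]
        split_ifs
        · exact ⟨ha1, ha2⟩
        · exact ⟨Nat.div_dvd_of_dvd ha1, ha2⟩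
      · have h3 : ∀ f : ZMod 2 → ℕ, ∏ a : ZMod 2, f a = f 0 * f 1 := fun f => Fin.prod_univ_two f
        rw [h3]
        show (if (0 : ZMod 2) = 1 then a else n / a) * (if (1 : ZMod 2) = 1 then a else n / a) = n
        rw [if_neg (by decide), if_pos rfl]
        exact Nat.div_mul_cancel ha1
    obtain ⟨x, hx⟩ := exists_Dc hn hD
    have hx1 : Dc x 1 = a := by
      rw [hx]
      exact if_pos rfl
    refine ⟨x, ?_, hx1⟩
    rw [Finset.mem_filter]
    refine ⟨Finset.mem_univ _, (cond_iff hn x).mp ?_⟩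
    rw [hx1]; exact ha3

theorem sum_W_P1 {n : ℕ} (hn : Squarefree n) :
    ∑ c : n.primeFactors → ZMod 2 × ZMod 2, W P1 c =
      2 ^ n.primeFactors.card * ((RS n).card : ℝ) := by
  classical
  rw [sum_W_eq, Finset.sum_congr rfl fun x _ => prod_eps x, ← Finset.sum_filter,
    Finset.sum_const, nsmul_eq_mul, card_RS hn, mul_comm]

end Vale.Agent.P017.H915
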