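import Vale.Agent.P017.H506.Defs
import Vale.Agent.P014.H698.Tup

/-!
# Tuples and colourings for a general index type
-/

namespace Vale.Agent.P017.H915

open Finset Vale.Agent.P014.FM Vale.Agent.P017.H506
open Vale.Agent.P014.H698 (J_prod_left J_prod_right)

variable {ι : Type*} [DecidableEq ι]

/-- the factorisation attached to a colouring -/
def Dc {n : ℕ} (c : n.primeFactors → ι) (u : ι) : ℕ :=
  ∏ p ∈ Finset.univ.filter (fun p => c p = u), (p : ℕ)

theorem prime_coe {n : ℕ} (p : n.primeFactors) : (p : ℕ).Prime :=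
  Nat.prime_of_mem_primeFactors p.2

theorem dvd_Dc_iff {n : ℕ} (c : n.primeFactors → ι) (u : ι) (p : n.primeFactors) :
    (p : ℕ) ∣ Dc c u ↔ c p = u := by
  unfold Dc
  rw [(prime_coe p).prime.dvd_finsetProd_iff]
  constructor
  · rintro ⟨q, hq, hpq⟩
    rw [Finset.mem_filter] at hq
    have : p = q :=
      Subtype.ext ((Nat.prime_dvd_prime_iff_eq (prime_coe p) (prime_coe q)).mp hpq)
    rw [this]; exact hq.2
  · intro h
    exact ⟨p, Finset.mem_filter.mpr ⟨Finset.mem_univ _, h⟩, dvd_rfl⟩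

variable [Fintype ι]

theorem prod_Dc {n : ℕ} (hn : Squarefree n) (c : n.primeFactors → ι) : ∏ u, Dc c u = n := by
  unfold Dc
  rw [Finset.prod_fiberwise Finset.univ c (fun p => (p : ℕ)),
    Finset.prod_coe_sort n.primeFactors (fun p => p)]
  exact Nat.prod_primeFactors_of_squarefree hn

theorem Dc_dvd {n : ℕ} (hn : Squarefree n) (c : n.primeFactors → ι) (u : ι) : Dc c u ∣ n := by
  conv_rhs => rw [← prod_Dc hn c]
  exact Finset.dvd_prod_of_mem _ (Finset.mem_univ u)

/-- the sign of the factorisation attached to a colouring -/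
theorem wtP_Dc (P : ι → ι → ZMod 2) {n : ℕ} (c : n.primeFactors → ι) :
    wtP P (Dc c) = ∏ p : n.primeFactors, ∏ q : n.primeFactors,
      (if P (c p) (c q) = 1 then J p q else 1) := by
  unfold wtP
  have h1 : ∀ u v : ι, (if P u v = 1 then J (Dc c u) (Dc c v) else 1) =
      ∏ p ∈ Finset.univ.filter (fun p => c p = u), ∏ q ∈ Finset.univ.filter (fun q => c q = v),
        (if P (c p) (c q) = 1 then J p q else 1) := by
    intro u v
    split_ifs with h
    · unfold Dc
      rw [J_prod_left]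
      refine Finset.prod_congr rfl fun p hp => ?_
      rw [Finset.mem_filter] at hp
      rw [J_prod_right _ _ fun q _ => (prime_coe q).ne_zero]
      refine Finset.prod_congr rfl fun q hq => ?_
      rw [Finset.mem_filter] at hq
      rw [hp.2, hq.2, if_pos h]
    · refine (Finset.prod_eq_one fun p hp => Finset.prod_eq_one fun q hq => ?_).symm
      rw [Finset.mem_filter] at hp hq
      show (if P (c p) (c q) = 1 then J p q else 1) = 1
      rw [hp.2, hq.2, if_neg h]
  rw [Finset.prod_congr rfl fun u _ => Finset.prod_congr rfl fun v _ => h1 u v]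
  have h2 : ∀ u : ι, ∏ v : ι, ∏ p ∈ Finset.univ.filter (fun p => c p = u),
      ∏ q ∈ Finset.univ.filter (fun q => c q = v), (if P (c p) (c q) = 1 then J p q else 1) =
      ∏ p ∈ Finset.univ.filter (fun p => c p = u),
        ∏ q : n.primeFactors, (if P (c p) (c q) = 1 then J p q else 1) := by
    intro u
    rw [Finset.prod_comm]
    refine Finset.prod_congr rfl fun p _ => ?_
    exact Finset.prod_fiberwise _ _ _
  rw [Finset.prod_congr rfl fun u _ => h2 u]
  exact Finset.prod_fiberwise _ _ _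

theorem Dc_mem_tup {n : ℕ} (hn : Squarefree n) (c : n.primeFactors → ι) : Dc c ∈ tup ι n := by
  unfold tup
  rw [Finset.mem_filter, Fintype.mem_piFinset]
  exact ⟨fun u => Nat.mem_divisors.mpr ⟨Dc_dvd hn c u, hn.ne_zero⟩, prod_Dc hn c⟩

omit [Fintype ι] in
theorem Dc_injective {n : ℕ} : Function.Injective (Dc : (n.primeFactors → ι) → ι → ℕ) := by
  intro c c' h
  funext p
  have h1 := (dvd_Dc_iff c (c p) p).mpr rfl
  rw [h] at h1
  exact ((dvd_Dc_iff c' (c p) p).mp h1).symm

theorem exists_Dc {n : ℕ} (hn : Squarefree n) {D : ι → ℕ} (hD : D ∈ tup ι n) :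
    ∃ c : n.primeFactors → ι, Dc c = D := by
  have hn0 : n ≠ 0 := hn.ne_zero
  unfold tup at hD
  rw [Finset.mem_filter, Fintype.mem_piFinset] at hD
  obtain ⟨hD1, hD2⟩ := hD
  have h1 : ∀ p : n.primeFactors, ∃ u, (p : ℕ) ∣ D u := by
    intro p
    have h2 : (p : ℕ) ∣ ∏ u, D u := hD2.symm ▸ Nat.dvd_of_mem_primeFactors p.2
    rw [(Nat.prime_of_mem_primeFactors p.2).prime.dvd_finsetProd_iff] at h2
    obtain ⟨u, _, hu⟩ := h2
    exact ⟨u, hu⟩
  choose c hc using h1
  refine ⟨c, ?_⟩
  funext u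
  have hDn : ∀ u, D u ∣ n := fun u => Nat.dvd_of_mem_divisors (hD1 u)
  rw [Nat.Squarefree.ext_iff (hn.squarefree_of_dvd (Dc_dvd hn c u))
    (hn.squarefree_of_dvd (hDn u))]
  intro p hp
  constructor
  · intro h
    have hpn : p ∈ n.primeFactors :=
      Nat.mem_primeFactors.mpr ⟨hp, h.trans (Dc_dvd hn c u), hn0⟩
    have h4 := (dvd_Dc_iff c u ⟨p, hpn⟩).mp h
    have h5 := hc ⟨p, hpn⟩
    rwa [h4] at h5
  · intro h
    have hpn : p ∈ n.primeFactors :=
      Nat.mem_primeFactors.mpr ⟨hp, h.trans (hDn u), hn0⟩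
    refine (dvd_Dc_iff c u ⟨p, hpn⟩).mpr ?_
    by_contra hne
    have h5 := hc ⟨p, hpn⟩
    have h6 : p * p ∣ n := by
      rw [← hD2, ← Finset.mul_prod_erase Finset.univ D (Finset.mem_univ u)]
      exact Nat.mul_dvd_mul h (h5.trans (Finset.dvd_prod_of_mem _
        (Finset.mem_erase.mpr ⟨hne, Finset.mem_univ _⟩)))
    exact hp.not_isUnit (hn p h6)

/-- sums over colourings and over tuples -/
theorem sum_tup {n : ℕ} (hn : Squarefree n) (F : (ι → ℕ) → ℝ) :
    ∑ c : n.primeFactors → ι, F (Dc c) = ∑ D ∈ tup ι n, F D := by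
  refine Finset.sum_bij (fun c _ => Dc c) (fun c _ => Dc_mem_tup hn c) ?_ ?_ ?_
  · intro c _ c' _ h
    exact Dc_injective h
  · intro D hD
    obtain ⟨c, hc⟩ := exists_Dc hn hD
    exact ⟨c, Finset.mem_univ _, hc⟩
  · intro c _; rfl

omit [Fintype ι] in
/-- the tuple is supported on `U` exactly if the colouring takes its values in `U` -/
theorem Dc_supp {n : ℕ} (c : n.primeFactors → ι) (U : Finset ι) :
    (∀ u, u ∉ U → Dc c u = 1) ↔ ∀ p, c p ∈ U := by
  constructor
  · intro h p
    by_contra hp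
    have h1 := (dvd_Dc_iff c (c p) p).mpr rfl
    rw [h _ hp] at h1
    exact (prime_coe p).one_lt.ne' (Nat.dvd_one.mp h1)
  · intro h u hu
    unfold Dc
    refine Finset.prod_eq_one fun p hp => ?_
    rw [Finset.mem_filter] at hp
    exact absurd (hp.2 ▸ h p) hu

open Classical in
/-- the version with support in `U` -/
theorem sum_tup_supp {n : ℕ} (hn : Squarefree n) (U : Finset ι) (F : (ι → ℕ) → ℝ) :
    ∑ c ∈ (univ : Finset (n.primeFactors → ι)).filter (fun c => ∀ p, c p ∈ U), F (Dc c) =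
      ∑ D ∈ (tup ι n).filter (fun D => ∀ u, u ∉ U → D u = 1), F D := by
  rw [Finset.sum_filter, Finset.sum_filter, ← sum_tup hn]
  refine Finset.sum_congr rfl fun c _ => ?_
  simp only [Dc_supp]

end Vale.Agent.P017.H915
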